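import Mathlib

/-! # P318: monotonicity of the integrality gap of uniform sparsest cut -/

namespace Vale.Agent.Results.P318.GapMonotone

open Finset Filter Topology

/-- capacities -/
structure IsCapacity {n : ℕ} (c : Fin n → Fin n → ℝ) : Prop where
  symm : ∀ i j, c i j = c j i
  diag : ∀ i, c i i = 0
  nonneg : ∀ i j, 0 ≤ c i j

/-- the ratio of the cut `S` -/
noncomputable def ratio {n : ℕ} (c : Fin n → Fin n → ℝ) (S : Finset (Fin n)) : ℝ :=
  (∑ i ∈ S, ∑ j ∈ Sᶜ, c i j) / ((S.card : ℝ) * ((n : ℝ) - S.card))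

/-- `Φ(c)` -/
noncomputable def Phi {n : ℕ} (c : Fin n → Fin n → ℝ) : ℝ :=
  sInf {v | ∃ S : Finset (Fin n), S.Nonempty ∧ S ≠ Finset.univ ∧ v = ratio c S}

/-- negative-type semimetric -/
def NegType {n : ℕ} (d : Fin n → Fin n → ℝ) : Prop :=
  (∃ (k : ℕ) (x : Fin n → EuclideanSpace ℝ (Fin k)), ∀ i j, d i j = ‖x i - x j‖ ^ 2) ∧
    ∀ i j k, d i k ≤ d i j + d j k

/-- the sum over the pairs `i < j` -/
noncomputable def pairSum {n : ℕ} (a : Fin n → Fin n → ℝ) : ℝ :=
  ∑ i, ∑ j, if i < j then a i j else 0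

/-- the value of the Goemans-Linial relaxation -/
noncomputable def relax {n : ℕ} (c : Fin n → Fin n → ℝ) : ℝ :=
  sInf {v | ∃ d : Fin n → Fin n → ℝ, NegType d ∧ pairSum d = 1 ∧
    v = pairSum fun i j => c i j * d i j}

/-- the integrality gap `g(n)` -/
noncomputable def gap (n : ℕ) : ENNReal :=
  ⨆ (c : Fin n → Fin n → ℝ) (_ : IsCapacity c) (_ : 0 < relax c), ENNReal.ofReal (Phi c / relax c)

theorem pairSum_eq {n : ℕ} {a : Fin n → Fin n → ℝ} (hs : ∀ i j, a i j = a j i)
    (hd : ∀ i, a i i = 0) : pairSum a = (∑ i, ∑ j, a i j) / 2 := by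
  have h1 : ∑ i, ∑ j, a i j = pairSum a + pairSum fun i j => a j i := by
    unfold pairSum
    have h2 : ∑ i : Fin n, ∑ j : Fin n, (if i < j then a j i else 0) =
        ∑ i : Fin n, ∑ j : Fin n, (if j < i then a i j else 0) := Finset.sum_comm
    rw [h2, ← Finset.sum_add_distrib]
    refine Finset.sum_congr rfl fun i _ => ?_
    rw [← Finset.sum_add_distrib]
    refine Finset.sum_congr rfl fun j _ => ?_
    rcases lt_trichotomy i j with h | h | h
    · simp [h, not_lt_of_gt h]
    · subst h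
      simp [hd]
    · simp [h, not_lt_of_gt h]
  have h3 : (pairSum fun i j => a j i) = pairSum a := by
    unfold pairSum
    exact Finset.sum_congr rfl fun i _ => Finset.sum_congr rfl fun j _ => by rw [hs i j]
  rw [h1, h3]
  ring

theorem NegType.nonneg {n : ℕ} {d : Fin n → Fin n → ℝ} (h : NegType d) (i j : Fin n) :
    0 ≤ d i j := by
  obtain ⟨⟨k, x, hx⟩, _⟩ := h
  rw [hx]
  positivity

theorem NegType.symm {n : ℕ} {d : Fin n → Fin n → ℝ} (h : NegType d) (i j : Fin n) :
    d i j = d j i := by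
  obtain ⟨⟨k, x, hx⟩, _⟩ := h
  rw [hx, hx, norm_sub_rev]

theorem NegType.diag {n : ℕ} {d : Fin n → Fin n → ℝ} (h : NegType d) (i : Fin n) :
    d i i = 0 := by
  obtain ⟨⟨k, x, hx⟩, _⟩ := h
  rw [hx]
  simp

theorem pairSum_nonneg {n : ℕ} {a : Fin n → Fin n → ℝ} (h : ∀ i j, 0 ≤ a i j) :
    0 ≤ pairSum a := by
  unfold pairSum
  exact Finset.sum_nonneg fun i _ => Finset.sum_nonneg fun j _ => by
    split_ifs
    · exact h i j
    · exact le_rfl

theorem ratio_nonneg {n : ℕ} {c : Fin n → Fin n → ℝ} (hc : IsCapacity c) (S : Finset (Fin n)) :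
    0 ≤ ratio c S := by
  unfold ratio
  have h1 : (S.card : ℝ) ≤ n := by
    have := S.card_le_univ
    rw [Fintype.card_fin] at this
    exact_mod_cast this
  refine div_nonneg (Finset.sum_nonneg fun i _ => Finset.sum_nonneg fun j _ => hc.nonneg i j) ?_
  exact mul_nonneg (by positivity) (by linarith)

theorem Phi_le {n : ℕ} {c : Fin n → Fin n → ℝ} (hc : IsCapacity c) {S : Finset (Fin n)}
    (h1 : S.Nonempty) (h2 : S ≠ Finset.univ) : Phi c ≤ ratio c S := by
  refine csInf_le ⟨0, ?_⟩ ⟨S, h1, h2, rfl⟩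
  rintro v ⟨S, _, _, rfl⟩
  exact ratio_nonneg hc S

theorem Phi_nonneg {n : ℕ} {c : Fin n → Fin n → ℝ} (hc : IsCapacity c) : 0 ≤ Phi c := by
  refine Real.sInf_nonneg ?_
  rintro v ⟨S, _, _, rfl⟩
  exact ratio_nonneg hc S

theorem le_Phi {n : ℕ} (hn : 2 ≤ n) {c : Fin n → Fin n → ℝ} {t : ℝ}
    (h : ∀ S : Finset (Fin n), S.Nonempty → S ≠ Finset.univ → t ≤ ratio c S) : t ≤ Phi c := by
  refine le_csInf ?_ ?_
  · refine ⟨_, {⟨0, by omega⟩}, Finset.singleton_nonempty _, ?_, rfl⟩
    intro h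
    have h1 := congrArg Finset.card h
    rw [Finset.card_singleton, Finset.card_univ, Fintype.card_fin] at h1
    omega
  · rintro v ⟨S, h1, h2, rfl⟩
    exact h S h1 h2

theorem relax_bdd {n : ℕ} {c : Fin n → Fin n → ℝ} (hc : IsCapacity c) :
    BddBelow {v | ∃ d : Fin n → Fin n → ℝ, NegType d ∧ pairSum d = 1 ∧
      v = pairSum fun i j => c i j * d i j} := by
  refine ⟨0, ?_⟩
  rintro v ⟨d, hd, _, rfl⟩
  exact pairSum_nonneg fun i j => mul_nonneg (hc.nonneg i j) (hd.nonneg i j)

theorem relax_set_nonempty {n : ℕ} {c : Fin n → Fin n → ℝ} (h : 0 < relax c) :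
    {v | ∃ d : Fin n → Fin n → ℝ, NegType d ∧ pairSum d = 1 ∧
      v = pairSum fun i j => c i j * d i j}.Nonempty := by
  by_contra hne
  rw [Set.not_nonempty_iff_eq_empty] at hne
  unfold relax at h
  rw [hne, Real.sInf_empty] at h
  exact lt_irrefl _ h

section blow

variable {n N : ℕ} (π : Fin N → Fin n)

/-- size of a fibre -/
noncomputable def wt (i : Fin n) : ℝ := ((univ.filter fun x : Fin N => π x = i).card : ℝ)

theorem sum_comp (F : Fin n → ℝ) : ∑ x, F (π x) = ∑ i, wt π i * F i := by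
  rw [← Finset.sum_fiberwise univ π fun x => F (π x)]
  refine Finset.sum_congr rfl fun i _ => ?_
  rw [Finset.sum_congr rfl (g := fun _ => F i)]
  · rw [Finset.sum_const, nsmul_eq_mul]
    rfl
  · intro x hx
    rw [(Finset.mem_filter.1 hx).2]

theorem sum_comp2 (F : Fin n → Fin n → ℝ) :
    ∑ x, ∑ y, F (π x) (π y) = ∑ i, ∑ j, wt π i * wt π j * F i j := by
  rw [sum_comp π fun i => ∑ y, F i (π y)]
  refine Finset.sum_congr rfl fun i _ => ?_
  rw [sum_comp π (F i), Finset.mul_sum]
  exact Finset.sum_congr rfl fun j _ => by ring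

/-- the blown up capacities -/
noncomputable def blow (c : Fin n → Fin n → ℝ) (M ε : ℝ) (x y : Fin N) : ℝ :=
  if x = y then 0 else c (π x) (π y) / (wt π (π x) * wt π (π y)) + ε + if π x = π y then M else 0

theorem wt_pos (x : Fin N) : 0 < wt π (π x) := by
  unfold wt
  have : 0 < (univ.filter fun y : Fin N => π y = π x).card :=
    Finset.card_pos.2 ⟨x, by simp⟩
  exact_mod_cast this

theorem blow_cap {c : Fin n → Fin n → ℝ} (hc : IsCapacity c) {M ε : ℝ} (hM : 0 ≤ M) (hε : 0 ≤ ε) :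
    IsCapacity (blow π c M ε) := by
  refine ⟨fun x y => ?_, fun x => ?_, fun x y => ?_⟩
  · unfold blow
    rw [hc.symm (π x) (π y), mul_comm (wt π (π x))]
    congr 1
    · exact propext eq_comm
    · congr 2
      exact propext eq_comm
  · simp [blow]
  · unfold blow
    have h1 := wt_pos π x
    have h2 := wt_pos π y
    have h3 := hc.nonneg (π x) (π y)
    split_ifs
    · exact le_rfl
    · positivity
    · positivity

/-- the lower bound of the relaxation -/
theorem eps_le_relax {c : Fin n → Fin n → ℝ} (hc : IsCapacity c) {M ε : ℝ} (hM : 0 ≤ M) (hε : 0 ≤ ε)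
    (hne : {v | ∃ d : Fin N → Fin N → ℝ, NegType d ∧ pairSum d = 1 ∧
      v = pairSum fun i j => blow π c M ε i j * d i j}.Nonempty) :
    ε ≤ relax (blow π c M ε) := by
  refine le_csInf hne ?_
  rintro v ⟨d, hd, h1, rfl⟩
  have h2 : ε = pairSum fun i j => ε * d i j := by
    have : (pairSum fun i j => ε * d i j) = ε * pairSum d := by
      unfold pairSum
      rw [Finset.mul_sum]
      refine Finset.sum_congr rfl fun i _ => ?_
      rw [Finset.mul_sum]
      refine Finset.sum_congr rfl fun j _ => ?_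
      split_ifs <;> simp
    rw [this, h1, mul_one]
  refine h2.le.trans ?_
  unfold pairSum
  refine Finset.sum_le_sum fun x _ => Finset.sum_le_sum fun y _ => ?_
  split_ifs with hxy
  · refine mul_le_mul_of_nonneg_right ?_ (hd.nonneg x y)
    unfold blow
    rw [if_neg hxy.ne]
    have h1 := wt_pos π x
    have h2 := wt_pos π y
    have h3 := hc.nonneg (π x) (π y)
    have h4 : 0 ≤ c (π x) (π y) / (wt π (π x) * wt π (π y)) := by positivity
    split_ifs <;> linarith
  · exact le_rfl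

/-- the pulled back semimetric -/
theorem pull {d : Fin n → Fin n → ℝ} (hd : NegType d) {s : ℝ} (hs : 0 < s) :
    NegType fun x y : Fin N => d (π x) (π y) / s := by
  obtain ⟨⟨k, z, hz⟩, htri⟩ := hd
  refine ⟨⟨k, fun x => (√s)⁻¹ • z (π x), fun x y => ?_⟩, fun x y w => ?_⟩
  · show d (π x) (π y) / s = _
    rw [← smul_sub, norm_smul, mul_pow, hz, norm_inv, inv_pow, Real.norm_eq_abs, sq_abs,
      Real.sq_sqrt hs.le]
    ring
  · rw [← add_div]
    exact div_le_div_of_nonneg_right (htri _ _ _) hs.le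

theorem relax_le {c : Fin n → Fin n → ℝ} (hc : IsCapacity c) {M ε a : ℝ} (hM : 0 ≤ M) (hε : 0 ≤ ε)
    (ha : 0 < a) (hw : ∀ i, a ≤ wt π i) {d : Fin n → Fin n → ℝ} (hd : NegType d)
    (h1 : pairSum d = 1) :
    ∃ d' : Fin N → Fin N → ℝ, NegType d' ∧ pairSum d' = 1 ∧
      (pairSum fun x y => blow π c M ε x y * d' x y) ≤
        (pairSum fun i j => c i j * d i j) / a ^ 2 + ε := by
  have hwn : ∀ i, 0 < wt π i := fun i => ha.trans_le (hw i)
  obtain ⟨s, hs⟩ : ∃ s : ℝ, s = pairSum fun x y : Fin N => d (π x) (π y) := ⟨_, rfl⟩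
  have hs2 : s = (∑ i, ∑ j, wt π i * wt π j * d i j) / 2 := by
    rw [hs, pairSum_eq (fun x y => hd.symm _ _) (fun x => hd.diag _), sum_comp2 π d]
  have hsa : a ^ 2 ≤ s := by
    have h2 : (∑ i, ∑ j, d i j) / 2 = 1 := by
      rw [← pairSum_eq hd.symm hd.diag, h1]
    have h3 : a ^ 2 * ∑ i, ∑ j, d i j ≤ ∑ i, ∑ j, wt π i * wt π j * d i j := by
      rw [Finset.mul_sum]
      refine Finset.sum_le_sum fun i _ => ?_
      rw [Finset.mul_sum]
      refine Finset.sum_le_sum fun j _ => ?_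
      refine mul_le_mul_of_nonneg_right ?_ (hd.nonneg i j)
      rw [sq]
      exact mul_le_mul (hw i) (hw j) ha.le (hwn i).le
    rw [hs2]
    nlinarith
  have hs0 : 0 < s := lt_of_lt_of_le (by positivity) hsa
  refine ⟨fun x y => d (π x) (π y) / s, pull π hd hs0, ?_, ?_⟩
  · have : (pairSum fun x y : Fin N => d (π x) (π y) / s) =
        (pairSum fun x y : Fin N => d (π x) (π y)) / s := by
      unfold pairSum
      rw [Finset.sum_div]
      refine Finset.sum_congr rfl fun i _ => ?_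
      rw [Finset.sum_div]
      refine Finset.sum_congr rfl fun j _ => ?_
      split_ifs <;> simp
    rw [this, ← hs, div_self hs0.ne']
  · have hcs := (blow_cap (N := N) π hc hM hε)
    rw [pairSum_eq (a := fun x y => blow π c M ε x y * (d (π x) (π y) / s))
      (fun x y => by rw [hcs.symm, hd.symm (π x)]) (fun x => by rw [hcs.diag, zero_mul])]
    have h4 : ∀ x y : Fin N, blow π c M ε x y * (d (π x) (π y) / s) =
        (c (π x) (π y) / (wt π (π x) * wt π (π y)) * d (π x) (π y) + ε * d (π x) (π y)) / s := by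
      intro x y
      unfold blow
      by_cases h : π x = π y
      · rw [h, hd.diag]
        simp
      · have hxy : x ≠ y := fun h' => h (by rw [h'])
        rw [if_neg hxy, if_neg h]
        ring
    have h5 : ∑ x : Fin N, ∑ y : Fin N, blow π c M ε x y * (d (π x) (π y) / s) =
        (∑ i, ∑ j, c i j * d i j) / s + ε * (∑ x : Fin N, ∑ y : Fin N, d (π x) (π y)) / s := by
      have h6 : ∑ i, ∑ j, c i j * d i j = ∑ x : Fin N, ∑ y : Fin N,
          c (π x) (π y) / (wt π (π x) * wt π (π y)) * d (π x) (π y) := by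
        rw [sum_comp2 π fun i j => c i j / (wt π i * wt π j) * d i j]
        refine Finset.sum_congr rfl fun i _ => Finset.sum_congr rfl fun j _ => ?_
        have h7 := (hwn i).ne'
        have h8 := (hwn j).ne'
        field_simp
      rw [h6, ← add_div, Finset.mul_sum, ← Finset.sum_add_distrib, Finset.sum_div]
      refine Finset.sum_congr rfl fun x _ => ?_
      rw [Finset.mul_sum, ← Finset.sum_add_distrib, Finset.sum_div]
      exact Finset.sum_congr rfl fun y _ => h4 x y
    rw [h5]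
    have h9 : (∑ x : Fin N, ∑ y : Fin N, d (π x) (π y)) = 2 * s := by
      rw [sum_comp2 π d, hs2]
      ring
    have h10 : (pairSum fun i j => c i j * d i j) = (∑ i, ∑ j, c i j * d i j) / 2 :=
      pairSum_eq (fun i j => by rw [hc.symm, hd.symm i]) fun i => by rw [hc.diag, zero_mul]
    have h11 : 0 ≤ ∑ i, ∑ j, c i j * d i j :=
      Finset.sum_nonneg fun i _ => Finset.sum_nonneg fun j _ =>
        mul_nonneg (hc.nonneg i j) (hd.nonneg i j)
    rw [h9, h10]
    have h12 : (∑ i, ∑ j, c i j * d i j) / s ≤ (∑ i, ∑ j, c i j * d i j) / a ^ 2 :=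
      div_le_div_of_nonneg_left h11 (by positivity) hsa
    have h13 : ε * (2 * s) / s = 2 * ε := by
      field_simp
    rw [h13]
    have h14 : (∑ i, ∑ j, c i j * d i j) / 2 / a ^ 2 = (∑ i, ∑ j, c i j * d i j) / a ^ 2 / 2 := by
      ring
    rw [h14]
    linarith


theorem le_Phi_blow (hN : 2 ≤ N) (hsurj : Function.Surjective π)
    {c : Fin n → Fin n → ℝ} (hc : IsCapacity c) {M ε b : ℝ} (hε : 0 ≤ ε) (hb : 0 < b)
    (hw : ∀ i, wt π i ≤ b) (hM : M = (N : ℝ) ^ 2 * (Phi c / b ^ 2)) :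
    Phi c / b ^ 2 ≤ Phi (blow π c M ε) := by
  have hM0 : 0 ≤ M := by
    rw [hM]
    have := Phi_nonneg hc
    positivity
  have hcap := blow_cap (N := N) π hc hM0 hε
  have hwn : ∀ i, 0 < wt π i := by
    intro i
    obtain ⟨x, rfl⟩ := hsurj i
    exact wt_pos π x
  refine le_Phi hN fun S hS1 hS2 => ?_
  have hcard : (S.card : ℝ) < N := by
    have h1 : S.card < (univ : Finset (Fin N)).card :=
      Finset.card_lt_card ((Finset.ssubset_univ_iff).2 hS2)
    rw [Finset.card_univ, Fintype.card_fin] at h1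
    exact_mod_cast h1
  have hcard0 : (0 : ℝ) < S.card := by exact_mod_cast Finset.card_pos.2 hS1
  have hden : 0 < (S.card : ℝ) * ((N : ℝ) - S.card) := mul_pos hcard0 (by linarith)
  by_cases hsat : ∀ x y, π x = π y → x ∈ S → y ∈ S
  · -- a saturated set
    set T : Finset (Fin n) := S.image π with hT
    have hST : ∀ x, x ∈ S ↔ π x ∈ T := by
      intro x
      constructor
      · exact fun h => Finset.mem_image_of_mem π h
      · intro h
        obtain ⟨y, hy, hyx⟩ := Finset.mem_image.1 h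
        exact hsat y x hyx hy
    have hT1 : T.Nonempty := hS1.image π
    have hT2 : T ≠ univ := by
      intro h
      refine hS2 (Finset.eq_univ_iff_forall.2 fun x => (hST x).2 ?_)
      rw [h]
      exact Finset.mem_univ _
    have hPhi := Phi_le hc hT1 hT2
    have hcT : (T.card : ℝ) < n := by
      have h1 : T.card < (univ : Finset (Fin n)).card :=
        Finset.card_lt_card ((Finset.ssubset_univ_iff).2 hT2)
      rw [Finset.card_univ, Fintype.card_fin] at h1
      exact_mod_cast h1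
    have hcT0 : (0 : ℝ) < T.card := by exact_mod_cast Finset.card_pos.2 hT1
    -- the cut
    have hcut : ∑ i ∈ T, ∑ j ∈ Tᶜ, c i j ≤ ∑ x ∈ S, ∑ y ∈ Sᶜ, blow π c M ε x y := by
      have h1 : ∑ i ∈ T, ∑ j ∈ Tᶜ, c i j = ∑ i, ∑ j, wt π i * wt π j *
          (if i ∈ T ∧ j ∉ T then c i j / (wt π i * wt π j) else 0) := by
        rw [← Finset.sum_subset (Finset.subset_univ T)]
        · refine Finset.sum_congr rfl fun i hi => ?_
          rw [← Finset.sum_subset (Finset.subset_univ Tᶜ)]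
          · refine Finset.sum_congr rfl fun j hj => ?_
            rw [if_pos ⟨hi, Finset.mem_compl.1 hj⟩]
            have h7 := (hwn i).ne'
            have h8 := (hwn j).ne'
            field_simp
          · intro j _ hj
            rw [if_neg (fun h => hj (Finset.mem_compl.2 h.2)), mul_zero]
        · intro i _ hi
          exact Finset.sum_eq_zero fun j _ => by rw [if_neg (fun h => hi h.1), mul_zero]
      rw [h1, ← sum_comp2 π fun i j => if i ∈ T ∧ j ∉ T then c i j / (wt π i * wt π j) else 0]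
      rw [← Finset.sum_subset (Finset.subset_univ S)]
      · refine Finset.sum_le_sum fun x hx => ?_
        rw [← Finset.sum_subset (Finset.subset_univ Sᶜ)]
        · refine Finset.sum_le_sum fun y hy => ?_
          have hy' : y ∉ S := Finset.mem_compl.1 hy
          rw [if_pos ⟨(hST x).1 hx, fun h => hy' ((hST y).2 h)⟩]
          have hxy : x ≠ y := fun h => hy' (h ▸ hx)
          unfold blow
          rw [if_neg hxy]
          split_ifs <;> linarith
        · intro y _ hy
          have hy' : y ∈ S := by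
            by_contra h
            exact hy (Finset.mem_compl.2 h)
          rw [if_neg]
          exact fun h => h.2 ((hST y).1 hy')
      · intro x _ hx
        refine Finset.sum_eq_zero fun y _ => ?_
        rw [if_neg]
        exact fun h => hx ((hST x).2 h.1)
    -- the cardinalities
    have hcS : (S.card : ℝ) = ∑ i ∈ T, wt π i := by
      have h1 : (S.card : ℝ) = ∑ x, if π x ∈ T then (1 : ℝ) else 0 := by
        rw [Finset.card_eq_sum_ones, Nat.cast_sum, ← Finset.sum_subset (Finset.subset_univ S)]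
        · refine Finset.sum_congr rfl fun x hx => ?_
          rw [if_pos ((hST x).1 hx)]
          simp
        · intro x _ hx
          rw [if_neg (fun h => hx ((hST x).2 h))]
      rw [h1, sum_comp π fun i => if i ∈ T then (1 : ℝ) else 0]
      simp
    have hcN : (N : ℝ) = ∑ i, wt π i := by
      have h1 := sum_comp π fun _ => (1 : ℝ)
      simpa using h1
    have hcS' : (N : ℝ) - S.card = ∑ i ∈ Tᶜ, wt π i := by
      rw [hcN, hcS, ← Finset.sum_add_sum_compl T (wt π)]
      ring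
    have hu1 : (S.card : ℝ) ≤ b * T.card := by
      rw [hcS]
      calc ∑ i ∈ T, wt π i ≤ ∑ _i ∈ T, b := Finset.sum_le_sum fun i _ => hw i
        _ = b * T.card := by rw [Finset.sum_const, nsmul_eq_mul, mul_comm]
    have hu2 : (N : ℝ) - S.card ≤ b * ((n : ℝ) - T.card) := by
      rw [hcS']
      calc ∑ i ∈ Tᶜ, wt π i ≤ ∑ _i ∈ Tᶜ, b := Finset.sum_le_sum fun i _ => hw i
        _ = b * ((n : ℝ) - T.card) := by
          rw [Finset.sum_const, nsmul_eq_mul, mul_comm, Finset.card_compl, Fintype.card_fin,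
            Nat.cast_sub (by
              have := T.card_le_univ
              rwa [Fintype.card_fin] at this)]
    have hdT : 0 < (T.card : ℝ) * ((n : ℝ) - T.card) := mul_pos hcT0 (by linarith)
    have hden2 : (S.card : ℝ) * ((N : ℝ) - S.card) ≤ b ^ 2 * ((T.card : ℝ) * ((n : ℝ) - T.card)) := by
      calc (S.card : ℝ) * ((N : ℝ) - S.card) ≤ (b * T.card) * (b * ((n : ℝ) - T.card)) :=
            mul_le_mul hu1 hu2 (by linarith) (by positivity)
        _ = _ := by ring
    calc Phi c / b ^ 2 ≤ ratio c T / b ^ 2 :=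
          div_le_div_of_nonneg_right hPhi (by positivity)
      _ = (∑ i ∈ T, ∑ j ∈ Tᶜ, c i j) / (b ^ 2 * ((T.card : ℝ) * ((n : ℝ) - T.card))) := by
          unfold ratio
          rw [div_div]
          congr 1
          ring
      _ ≤ (∑ i ∈ T, ∑ j ∈ Tᶜ, c i j) / ((S.card : ℝ) * ((N : ℝ) - S.card)) := by
          refine div_le_div_of_nonneg_left ?_ hden hden2
          exact Finset.sum_nonneg fun i _ => Finset.sum_nonneg fun j _ => hc.nonneg i j
      _ ≤ ratio (blow π c M ε) S := by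
          unfold ratio
          exact div_le_div_of_nonneg_right hcut hden.le
  · -- a set splitting a fibre
    push Not at hsat
    obtain ⟨x, y, hxy, hx, hy⟩ := hsat
    have hne : x ≠ y := fun h => hy (h ▸ hx)
    have h1 : M ≤ ∑ x ∈ S, ∑ y ∈ Sᶜ, blow π c M ε x y := by
      have h2 : M ≤ blow π c M ε x y := by
        unfold blow
        rw [if_neg hne, if_pos hxy]
        have h1 := wt_pos π x
        have h2 := wt_pos π y
        have h3 := hc.nonneg (π x) (π y)
        have h4 : 0 ≤ c (π x) (π y) / (wt π (π x) * wt π (π y)) := by positivity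
        linarith
      refine h2.trans (le_trans ?_ (Finset.single_le_sum
        (f := fun x => ∑ y ∈ Sᶜ, blow π c M ε x y)
        (fun i _ => Finset.sum_nonneg fun j _ => hcap.nonneg i j) hx))
      exact Finset.single_le_sum (f := fun y => blow π c M ε x y)
        (fun j _ => hcap.nonneg x j) (Finset.mem_compl.2 hy)
    have hNN : (S.card : ℝ) * ((N : ℝ) - S.card) ≤ (N : ℝ) ^ 2 := by nlinarith
    unfold ratio
    rw [le_div_iff₀ hden]
    refine le_trans ?_ h1
    rw [hM, mul_comm]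
    exact mul_le_mul_of_nonneg_right hNN (div_nonneg (Phi_nonneg hc) (by positivity))

/-- the main inequality -/
theorem main_blow (hN : 2 ≤ N) {a b : ℝ} (ha : 0 < a) (hb : 0 < b)
    (hwa : ∀ i, a ≤ wt π i) (hwb : ∀ i, wt π i ≤ b) (hsurj : Function.Surjective π) :
    gap n ≤ ENNReal.ofReal ((b / a) ^ 2) * gap N := by
  unfold gap
  refine iSup_le fun c => iSup_le fun hc => iSup_le fun hG => ?_
  obtain ⟨M, hM⟩ : ∃ M : ℝ, M = (N : ℝ) ^ 2 * (Phi c / b ^ 2) := ⟨_, rfl⟩
  have hP0 := Phi_nonneg hc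
  have hM0 : 0 ≤ M := by
    rw [hM]
    positivity
  have hne : ∀ ε : ℝ, 0 < ε → {v | ∃ d : Fin N → Fin N → ℝ, NegType d ∧ pairSum d = 1 ∧
      v = pairSum fun i j => blow π c M ε i j * d i j}.Nonempty := by
    intro ε hε
    obtain ⟨v, d, hd, h1, _⟩ := relax_set_nonempty hG
    obtain ⟨d', hd', h1', _⟩ := relax_le π hc hM0 hε.le ha hwa hd h1
    exact ⟨_, d', hd', h1', rfl⟩
  have hup : ∀ ε : ℝ, 0 < ε → relax (blow π c M ε) ≤ relax c / a ^ 2 + ε := by
    intro ε hε
    have hcap := blow_cap (N := N) π hc hM0 hε.le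
    have h2 : (relax (blow π c M ε) - ε) * a ^ 2 ≤ relax c := by
      refine le_csInf (relax_set_nonempty hG) ?_
      rintro v ⟨d, hd, h1, rfl⟩
      obtain ⟨d', hd', h1', h2'⟩ := relax_le π hc hM0 hε.le ha hwa hd h1
      have h3 : relax (blow π c M ε) ≤ _ := csInf_le (relax_bdd hcap) ⟨d', hd', h1', rfl⟩
      have h4 : relax (blow π c M ε) - ε ≤ (pairSum fun i j => c i j * d i j) / a ^ 2 := by
        linarith
      rwa [le_div_iff₀ (by positivity)] at h4
    rw [← sub_le_iff_le_add, le_div_iff₀ (by positivity)]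
    exact h2
  have hstep : ∀ ε : ℝ, 0 < ε →
      ENNReal.ofReal (Phi c / b ^ 2 / (relax c / a ^ 2 + ε)) ≤
        ⨆ (c : Fin N → Fin N → ℝ) (_ : IsCapacity c) (_ : 0 < relax c),
          ENNReal.ofReal (Phi c / relax c) := by
    intro ε hε
    have hcap := blow_cap (N := N) π hc hM0 hε.le
    have hpos : 0 < relax (blow π c M ε) :=
      lt_of_lt_of_le hε (eps_le_relax π hc hM0 hε.le (hne ε hε))
    refine le_trans (ENNReal.ofReal_le_ofReal ?_)
      (le_iSup_of_le (blow π c M ε) (le_iSup_of_le hcap (le_iSup_of_le hpos le_rfl)))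
    have h1 := le_Phi_blow π hN hsurj hc hε.le hb hwb hM
    exact div_le_div₀ (Phi_nonneg hcap) h1 hpos (hup ε hε)
  have hlim : Tendsto (fun ε : ℝ => ENNReal.ofReal (Phi c / b ^ 2 / (relax c / a ^ 2 + ε)))
      (𝓝[>] 0) (𝓝 (ENNReal.ofReal (Phi c / b ^ 2 / (relax c / a ^ 2 + 0)))) := by
    refine ENNReal.tendsto_ofReal ?_
    refine Tendsto.div tendsto_const_nhds ?_ ?_
    · exact tendsto_const_nhds.add (tendsto_nhdsWithin_of_tendsto_nhds tendsto_id)
    · have : 0 < relax c / a ^ 2 := by positivity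
      linarith
  have hfin := le_of_tendsto hlim (eventually_mem_nhdsWithin.mono fun ε hε => hstep ε hε)
  have heq : ENNReal.ofReal (Phi c / relax c) = ENNReal.ofReal ((b / a) ^ 2) *
      ENNReal.ofReal (Phi c / b ^ 2 / (relax c / a ^ 2 + 0)) := by
    rw [← ENNReal.ofReal_mul (by positivity)]
    congr 1
    rw [add_zero]
    have h1 := hG.ne'
    field_simp
  rw [heq]
  exact mul_le_mul_right hfin _

end blow

/-- the fibres of reduction modulo `n` -/
theorem wt_mod {n N : ℕ} (hn : 0 < n) (i : Fin n) :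
    wt (fun x : Fin N => (⟨x.1 % n, Nat.mod_lt _ hn⟩ : Fin n)) i =
      ((N / n + if (i.1 % n) < N % n then 1 else 0 : ℕ) : ℝ) := by
  unfold wt
  congr 1
  rw [← Nat.count_modEq_card N hn i.1, Nat.count_eq_card_filter_range, Finset.card_filter,
    Finset.card_filter, ← Fin.sum_univ_eq_sum_range]
  refine Finset.sum_congr rfl fun x _ => ?_
  congr 1
  rw [Fin.ext_iff, Nat.ModEq, Nat.mod_eq_of_lt i.2]

theorem mod_surj {n N : ℕ} (hn : 0 < n) (h : n ≤ N) :
    Function.Surjective fun x : Fin N => (⟨x.1 % n, Nat.mod_lt _ hn⟩ : Fin n) := by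
  intro i
  refine ⟨⟨i.1, i.2.trans_le h⟩, ?_⟩
  exact Fin.ext (Nat.mod_eq_of_lt i.2)

theorem gap_le {n N : ℕ} (hn : 1 ≤ n) (h : n ≤ N) (hN : 2 ≤ N) :
    gap n ≤ ENNReal.ofReal ((1 + 1 / ((N / n : ℕ) : ℝ)) ^ 2) * gap N := by
  have ha : 0 < N / n := Nat.div_pos h hn
  have ha' : (0 : ℝ) < ((N / n : ℕ) : ℝ) := by exact_mod_cast ha
  have h1 := main_blow (n := n) (N := N) _ hN (a := ((N / n : ℕ) : ℝ))
    (b := ((N / n : ℕ) : ℝ) + 1) ha' (by linarith)
    (fun i => by
      rw [wt_mod hn i]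
      exact_mod_cast Nat.le_add_right _ _)
    (fun i => by
      rw [wt_mod hn i]
      have : (if (i.1 % n) < N % n then 1 else 0) ≤ 1 := by split_ifs <;> omega
      exact_mod_cast Nat.add_le_add_left this _)
    (mod_surj hn h)
  have h2 : (((N / n : ℕ) : ℝ) + 1) / ((N / n : ℕ) : ℝ) = 1 + 1 / ((N / n : ℕ) : ℝ) := by
    field_simp
  rwa [h2] at h1

theorem gap_le_of_dvd {n N : ℕ} (hn : 1 ≤ n) (hN : 2 ≤ N) (h : n ∣ N) : gap n ≤ gap N := by
  have hle : n ≤ N := Nat.le_of_dvd (by omega) h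
  have ha : 0 < N / n := Nat.div_pos hle hn
  have ha' : (0 : ℝ) < ((N / n : ℕ) : ℝ) := by exact_mod_cast ha
  have hw : ∀ i : Fin n, wt (fun x : Fin N => (⟨x.1 % n, Nat.mod_lt _ hn⟩ : Fin n)) i =
      ((N / n : ℕ) : ℝ) := by
    intro i
    rw [wt_mod hn i, Nat.mod_eq_zero_of_dvd h]
    simp
  have h1 := main_blow (n := n) (N := N) _ hN (a := ((N / n : ℕ) : ℝ))
    (b := ((N / n : ℕ) : ℝ)) ha' ha' (fun i => (hw i).ge) (fun i => (hw i).le) (mod_surj hn hle)
  rw [div_self ha'.ne'] at h1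
  simpa using h1

theorem gap_zero : gap 0 = 0 := by
  have h : ∀ c : Fin 0 → Fin 0 → ℝ, ¬ 0 < relax c := by
    intro c hc
    obtain ⟨v, d, _, h1, _⟩ := relax_set_nonempty hc
    simp [pairSum] at h1
  unfold gap
  simp [h]

theorem gap_tendsto : Tendsto gap atTop (𝓝 (⨆ n, gap n)) := by
  rw [tendsto_order]
  refine ⟨fun b hb => ?_, fun b hb => Eventually.of_forall fun n => (le_iSup gap n).trans_lt hb⟩
  obtain ⟨n, hn⟩ := lt_iSup_iff.1 hb
  have hn1 : 1 ≤ n := by
    rcases Nat.eq_zero_or_pos n with h | h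
    · rw [h, gap_zero] at hn
      exact absurd hn (not_lt.2 (zero_le))
    · exact h
  have hdiv : Tendsto (fun N : ℕ => ((N / n : ℕ) : ℝ)) atTop atTop :=
    tendsto_natCast_atTop_atTop.comp (Nat.tendsto_div_const_atTop (by omega))
  have hlim : Tendsto (fun N : ℕ => ENNReal.ofReal ((1 + 1 / ((N / n : ℕ) : ℝ)) ^ 2) * b) atTop
      (𝓝 (ENNReal.ofReal ((1 + 0) ^ 2) * b)) := by
    refine ENNReal.Tendsto.mul_const ?_ (Or.inr (ne_top_of_lt hn))
    refine ENNReal.tendsto_ofReal ((tendsto_const_nhds.add ?_).pow 2)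
    simp only [one_div]
    exact hdiv.inv_tendsto_atTop
  have h1 : ENNReal.ofReal ((1 + 0) ^ 2) * b = b := by simp
  rw [h1] at hlim
  filter_upwards [hlim.eventually_lt_const hn, eventually_ge_atTop (max n 2)] with N hN1 hN2
  have h2 := gap_le hn1 ((le_max_left _ _).trans hN2) ((le_max_right _ _).trans hN2)
  by_contra hcon
  exact absurd (h2.trans (mul_le_mul_right (not_lt.1 hcon) _)) (not_le.2 hN1)

theorem result :
    (∀ n N : ℕ, 2 ≤ n → n ≤ N →
      gap n ≤ ENNReal.ofReal ((1 + 1 / ((N / n : ℕ) : ℝ)) ^ 2) * gap N ∧ gap n ≤ 4 * gap N) ∧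
    (∀ n N : ℕ, 2 ≤ n → 1 ≤ N → n ∣ N → gap n ≤ gap N) ∧
    Tendsto gap atTop (𝓝 (⨆ n, gap n)) ∧
    (∀ C : ENNReal, (∃ᶠ n in atTop, gap n ≤ C) → ∀ n, gap n ≤ C) := by
  refine ⟨fun n N hn h => ?_, fun n N hn hN h => ?_, gap_tendsto, fun C hC n => ?_⟩
  · have h1 := gap_le (by omega) h (hn.trans h)
    refine ⟨h1, h1.trans (mul_le_mul_left ?_ _)⟩
    have h2 : (1 : ℝ) ≤ ((N / n : ℕ) : ℝ) := by
      exact_mod_cast Nat.div_pos h (by omega)
    have h3 : 1 / ((N / n : ℕ) : ℝ) ≤ 1 := by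
      rw [div_le_one (by linarith)]
      exact h2
    have h4 : 0 ≤ 1 / ((N / n : ℕ) : ℝ) := by positivity
    have h5 : (1 + 1 / ((N / n : ℕ) : ℝ)) ^ 2 ≤ 4 := by nlinarith
    calc ENNReal.ofReal ((1 + 1 / ((N / n : ℕ) : ℝ)) ^ 2) ≤ ENNReal.ofReal 4 :=
          ENNReal.ofReal_le_ofReal h5
      _ = 4 := by norm_num
  · have hle : n ≤ N := Nat.le_of_dvd (by omega) h
    exact gap_le_of_dvd (by omega) (hn.trans hle) h
  · exact (le_iSup gap n).trans (le_of_tendsto_of_frequently gap_tendsto hC)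

end Vale.Agent.Results.P318.GapMonotone
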